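import Vale.Agent.Helper15.F20Fast

/-!
# The two accumulator automata for the group of order 20

States `ZMod 5 × Bool`; the letter kinds are `idl` (identity), `up` (the element of order
four) and `refl` (the reflection).  The second coordinate is a phase bit: it is reset by `up`
and toggled by `refl`; a reflection read at phase `false` acts as `t ↦ c0 - t`, at phase
`true` as `t ↦ c1 - t`.
-/

namespace Vale.Agent.Helper15.F20

open Vale.Agent.Helper10

/-- the kinds of letters -/
inductive LK : Type
  | idl : LK
  | up : LK
  | refl : LK

/-- the accumulator automaton with parameters `c0`, `c1` -/
def stepC (c0 c1 : ZMod 5) (q : ZMod 5 × Bool) : LK → ZMod 5 × Bool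
  | LK.idl => q
  | LK.up => (3 * q.1, false)
  | LK.refl => if q.2 = true then (c1 - q.1, false) else (c0 - q.1, true)

/-- the code of a state -/
def encS (q : ZMod 5 × Bool) : ℕ := q.1.val + (if q.2 = true then 5 else 0)

theorem encS_inj : Function.Injective encS := by
  intro a b
  revert a b
  decide

theorem encS_lt : ∀ q : ZMod 5 × Bool, encS q < 10 := by decide

/-- the codes of the letter kinds of the automaton `B` with absorbing base -/
def gensB : List ℕ :=
  [0x9876543210, 0x2413024110, 0x1234078916]

/-- the transition monoid of the automaton `B` with absorbing base, as a tree of codes -/
def trB : Tr :=
  (Tr.nd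
    (Tr.nd
      (Tr.nd
        (Tr.nd
          (Tr.nd
            (Tr.nd
              (Tr.nd
                (Tr.nd Tr.lf 0x1111011110 Tr.lf)
                0x1111011111
                Tr.lf)
              0x1111011112
              (Tr.nd Tr.lf 0x1111111111 Tr.lf))
            0x1111111112
            (Tr.nd
              (Tr.nd
                (Tr.nd Tr.lf 0x1111111113 Tr.lf)
                0x1111111114
                Tr.lf)
              0x1111111117
              (Tr.nd Tr.lf 0x1111111118 Tr.lf)))
          0x1111111119
          (Tr.nd
            (Tr.nd
              (Tr.nd
                (Tr.nd Tr.lf 0x1111121111 Tr.lf)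
                0x1111191111
                Tr.lf)
              0x1111211111
              (Tr.nd Tr.lf 0x1111211112 Tr.lf))
            0x1111211113
            (Tr.nd
              (Tr.nd
                (Tr.nd Tr.lf 0x1111211114 Tr.lf)
                0x1111211119
                Tr.lf)
              0x1111212111
              (Tr.nd Tr.lf 0x1111311111 Tr.lf))))
        0x1111311112
        (Tr.nd
          (Tr.nd
            (Tr.nd
              (Tr.nd
                (Tr.nd Tr.lf 0x1111311113 Tr.lf)
                0x1111411111
                Tr.lf)
              0x1111411112
              (Tr.nd Tr.lf 0x1111411113 Tr.lf))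
            0x1111411114
            (Tr.nd
              (Tr.nd
                (Tr.nd Tr.lf 0x1111421114 Tr.lf)
                0x1111611111
                Tr.lf)
              0x1111611116
              (Tr.nd Tr.lf 0x1111611119 Tr.lf)))
          0x1111711111
          (Tr.nd
            (Tr.nd
              (Tr.nd
                (Tr.nd Tr.lf 0x1111711117 Tr.lf)
                0x1111711118
                Tr.lf)
              0x1111711119
              (Tr.nd Tr.lf 0x1111791117 Tr.lf))
            0x1111811111
            (Tr.nd
              (Tr.nd
                (Tr.nd Tr.lf 0x1111811118 Tr.lf)
                0x1111811119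
                Tr.lf)
              0x1111911111
              (Tr.nd Tr.lf 0x1111911117 Tr.lf)))))
      0x1111911118
      (Tr.nd
        (Tr.nd
          (Tr.nd
            (Tr.nd
              (Tr.nd
                (Tr.nd Tr.lf 0x1111911119 Tr.lf)
                0x1111919111
                Tr.lf)
              0x1112011110
              (Tr.nd Tr.lf 0x1112111111 Tr.lf))
            0x1112111112
            (Tr.nd
              (Tr.nd
                (Tr.nd Tr.lf 0x1112111211 Tr.lf)
                0x1112121111
                Tr.lf)
              0x1112311113
              (Tr.nd Tr.lf 0x1112311214 Tr.lf)))
          0x1112391118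
          (Tr.nd
            (Tr.nd
              (Tr.nd
                (Tr.nd Tr.lf 0x1112411111 Tr.lf)
                0x1112411114
                Tr.lf)
              0x1112411211
              (Tr.nd Tr.lf 0x1113111111 Tr.lf))
            0x1113111113
            (Tr.nd
              (Tr.nd
                (Tr.nd Tr.lf 0x1113131111 Tr.lf)
                0x1113211112
                Tr.lf)
              0x1113411114
              (Tr.nd Tr.lf 0x1114111111 Tr.lf))))
        0x1114111114
        (Tr.nd
          (Tr.nd
            (Tr.nd
              (Tr.nd
                (Tr.nd Tr.lf 0x1114141111 Tr.lf)
                0x1114211112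
                Tr.lf)
              0x1114242111
              (Tr.nd Tr.lf 0x1117111111 Tr.lf))
            0x1117111117
            (Tr.nd
              (Tr.nd
                (Tr.nd Tr.lf 0x1117171111 Tr.lf)
                0x1117911119
                Tr.lf)
              0x1117979111
              (Tr.nd Tr.lf 0x1118111111 Tr.lf)))
          0x1118111118
          (Tr.nd
            (Tr.nd
              (Tr.nd
                (Tr.nd Tr.lf 0x1118181111 Tr.lf)
                0x1118711117
                Tr.lf)
              0x1118911119
              (Tr.nd Tr.lf 0x1119111111 Tr.lf))
            0x1119111119
            (Tr.nd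
              (Tr.nd Tr.lf 0x1119111911 Tr.lf)
              0x1119191111
              (Tr.nd Tr.lf 0x1119611116 Tr.lf))))))
    0x1119711111
    (Tr.nd
      (Tr.nd
        (Tr.nd
          (Tr.nd
            (Tr.nd
              (Tr.nd
                (Tr.nd Tr.lf 0x1119711117 Tr.lf)
                0x1119711911
                Tr.lf)
              0x1119811112
              (Tr.nd Tr.lf 0x1119811118 Tr.lf))
            0x1119811917
            (Tr.nd
              (Tr.nd
                (Tr.nd Tr.lf 0x1121012114 Tr.lf)
                0x1121111111
                Tr.lf)
              0x1121112111
              (Tr.nd Tr.lf 0x1121121111 Tr.lf)))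
          0x1121312111
          (Tr.nd
            (Tr.nd
              (Tr.nd
                (Tr.nd Tr.lf 0x1121412111 Tr.lf)
                0x1121421111
                Tr.lf)
              0x1123489117
              (Tr.nd Tr.lf 0x1124111114 Tr.lf))
            0x1131113111
            (Tr.nd
              (Tr.nd
                (Tr.nd Tr.lf 0x1131131111 Tr.lf)
                0x1131231111
                Tr.lf)
              0x1131413112
              (Tr.nd Tr.lf 0x1141114111 Tr.lf))))
        0x1141114112
        (Tr.nd
          (Tr.nd
            (Tr.nd
              (Tr.nd
                (Tr.nd Tr.lf 0x1141141111 Tr.lf)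
                0x1141214111
                Tr.lf)
              0x1141241111
              (Tr.nd Tr.lf 0x1142014213 Tr.lf))
            0x1171117111
            (Tr.nd
              (Tr.nd
                (Tr.nd Tr.lf 0x1171117119 Tr.lf)
                0x1171171111
                Tr.lf)
              0x1171917111
              (Tr.nd Tr.lf 0x1171971111 Tr.lf)))
          0x1179617918
          (Tr.nd
            (Tr.nd
              (Tr.nd
                (Tr.nd Tr.lf 0x1181118111 Tr.lf)
                0x1181181111
                Tr.lf)
              0x1181718119
              (Tr.nd Tr.lf 0x1181981111 Tr.lf))
            0x1191111111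
            (Tr.nd
              (Tr.nd
                (Tr.nd Tr.lf 0x1191119111 Tr.lf)
                0x1191191111
                Tr.lf)
              0x1191619117
              (Tr.nd Tr.lf 0x1191719111 Tr.lf)))))
      0x1191791111
      (Tr.nd
        (Tr.nd
          (Tr.nd
            (Tr.nd
              (Tr.nd
                (Tr.nd Tr.lf 0x1191819111 Tr.lf)
                0x1197111117
                Tr.lf)
              0x1198721113
              (Tr.nd Tr.lf 0x1211111112 Tr.lf))
            0x1211112111
            (Tr.nd
              (Tr.nd
                (Tr.nd Tr.lf 0x1211312113 Tr.lf)
                0x1211411112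
                Tr.lf)
              0x1211412114
              (Tr.nd Tr.lf 0x1214012110 Tr.lf)))
          0x1234078916
          (Tr.nd
            (Tr.nd
              (Tr.nd
                (Tr.nd Tr.lf 0x1241341112 Tr.lf)
                0x1311113111
                Tr.lf)
              0x1312413114
              (Tr.nd Tr.lf 0x1411114111 Tr.lf))
            0x1411214112
            (Tr.nd
              (Tr.nd
                (Tr.nd Tr.lf 0x1412114111 Tr.lf)
                0x1711117111
                Tr.lf)
              0x1711917119
              (Tr.nd Tr.lf 0x1719117111 Tr.lf))))
        0x1811118111
        (Tr.nd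
          (Tr.nd
            (Tr.nd
              (Tr.nd
                (Tr.nd Tr.lf 0x1819718117 Tr.lf)
                0x1911111119
                Tr.lf)
              0x1911119111
              (Tr.nd Tr.lf 0x1911711119 Tr.lf))
            0x1911719117
            (Tr.nd
              (Tr.nd
                (Tr.nd Tr.lf 0x1911819118 Tr.lf)
                0x1917619116
                Tr.lf)
              0x1971871119
              (Tr.nd Tr.lf 0x1987632114 Tr.lf)))
          0x2111121111
          (Tr.nd
            (Tr.nd
              (Tr.nd
                (Tr.nd Tr.lf 0x2111421114 Tr.lf)
                0x2114321113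
                Tr.lf)
              0x2413024110
              (Tr.nd Tr.lf 0x9111191111 Tr.lf))
            0x9111791117
            (Tr.nd
              (Tr.nd Tr.lf 0x9117891118 Tr.lf)
              0x9718697116
              (Tr.nd Tr.lf 0x9876543210 Tr.lf)))))))

/-- the code of a letter kind in the automaton `B` -/
def tabB : LK → ℕ
  | LK.idl => 0x9876543210
  | LK.up => 0x2413024110
  | LK.refl => 0x1234078916

/-- the codes of the letter kinds of the automaton `A` with absorbing base -/
def gensA : List ℕ :=
  [0x9876543210, 0x2413023130, 0x0123473956]

/-- the transition monoid of the automaton `A` with absorbing base, as a tree of codes -/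
def trA : Tr :=
  (Tr.nd
    (Tr.nd
      (Tr.nd
        (Tr.nd
          (Tr.nd
            (Tr.nd
              (Tr.nd
                (Tr.nd Tr.lf 0x0123303233 Tr.lf)
                0x0123473956
                (Tr.nd Tr.lf 0x0133303333 Tr.lf))
              0x0233303333
              (Tr.nd
                (Tr.nd Tr.lf 0x0243303433 Tr.lf)
                0x0313213203
                (Tr.nd Tr.lf 0x0313303133 Tr.lf)))
            0x0333133103
            (Tr.nd
              (Tr.nd
                (Tr.nd Tr.lf 0x0333303333 Tr.lf)
                0x0333333303
                (Tr.nd Tr.lf 0x0433303333 Tr.lf))
              0x1033313333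
              (Tr.nd
                (Tr.nd Tr.lf 0x1233013330 Tr.lf)
                0x1303313033
                Tr.lf)))
          0x1333313333
          (Tr.nd
            (Tr.nd
              (Tr.nd
                (Tr.nd Tr.lf 0x2033323333 Tr.lf)
                0x2103323033
                (Tr.nd Tr.lf 0x2333323333 Tr.lf))
              0x2413023130
              (Tr.nd
                (Tr.nd Tr.lf 0x3013333013 Tr.lf)
                0x3013333133
                Tr.lf))
            0x3023113023
            (Tr.nd
              (Tr.nd
                (Tr.nd Tr.lf 0x3023333233 Tr.lf)
                0x3033103313
                (Tr.nd Tr.lf 0x3033133303 Tr.lf))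
              0x3033203323
              (Tr.nd
                (Tr.nd Tr.lf 0x3033233303 Tr.lf)
                0x3033303333
                Tr.lf))))
        0x3033333033
        (Tr.nd
          (Tr.nd
            (Tr.nd
              (Tr.nd
                (Tr.nd Tr.lf 0x3033333303 Tr.lf)
                0x3033333313
                (Tr.nd Tr.lf 0x3033333323 Tr.lf))
              0x3033333333
              (Tr.nd
                (Tr.nd Tr.lf 0x3033333363 Tr.lf)
                0x3033403343
                Tr.lf))
            0x3043333433
            (Tr.nd
              (Tr.nd
                (Tr.nd Tr.lf 0x3103313333 Tr.lf)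
                0x3103333033
                (Tr.nd Tr.lf 0x3133013303 Tr.lf))
              0x3133033313
              (Tr.nd
                (Tr.nd Tr.lf 0x3133033323 Tr.lf)
                0x3133033330
                Tr.lf)))
          0x3133203313
          (Tr.nd
            (Tr.nd
              (Tr.nd
                (Tr.nd Tr.lf 0x3133313333 Tr.lf)
                0x3133333303
                (Tr.nd Tr.lf 0x3133333313 Tr.lf))
              0x3133333333
              (Tr.nd
                (Tr.nd Tr.lf 0x3203123313 Tr.lf)
                0x3203333033
                Tr.lf))
            0x3213333133
            (Tr.nd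
              (Tr.nd
                (Tr.nd Tr.lf 0x3233023303 Tr.lf)
                0x3233033323
                (Tr.nd Tr.lf 0x3233063393 Tr.lf))
              0x3233323333
              (Tr.nd
                (Tr.nd Tr.lf 0x3233333303 Tr.lf)
                0x3233333323
                Tr.lf)))))
      0x3233333333
      (Tr.nd
        (Tr.nd
          (Tr.nd
            (Tr.nd
              (Tr.nd
                (Tr.nd Tr.lf 0x3303103133 Tr.lf)
                0x3303113303
                (Tr.nd Tr.lf 0x3303203233 Tr.lf))
              0x3303223303
              (Tr.nd
                (Tr.nd Tr.lf 0x3303303333 Tr.lf)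
                0x3303333033
                (Tr.nd Tr.lf 0x3303333303 Tr.lf)))
            0x3303333333
            (Tr.nd
              (Tr.nd
                (Tr.nd Tr.lf 0x3303443303 Tr.lf)
                0x3313003313
                (Tr.nd Tr.lf 0x3313013033 Tr.lf))
              0x3313313333
              (Tr.nd
                (Tr.nd Tr.lf 0x3313333133 Tr.lf)
                0x3313333313
                Tr.lf)))
          0x3323003323
          (Tr.nd
            (Tr.nd
              (Tr.nd
                (Tr.nd Tr.lf 0x3323023033 Tr.lf)
                0x3323323333
                (Tr.nd Tr.lf 0x3323333233 Tr.lf))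
              0x3323333323
              (Tr.nd
                (Tr.nd Tr.lf 0x3333003333 Tr.lf)
                0x3333033033
                Tr.lf))
            0x3333033303
            (Tr.nd
              (Tr.nd
                (Tr.nd Tr.lf 0x3333033313 Tr.lf)
                0x3333033330
                (Tr.nd Tr.lf 0x3333033333 Tr.lf))
              0x3333103333
              (Tr.nd
                (Tr.nd Tr.lf 0x3333113333 Tr.lf)
                0x3333133133
                Tr.lf))))
        0x3333133313
        (Tr.nd
          (Tr.nd
            (Tr.nd
              (Tr.nd
                (Tr.nd Tr.lf 0x3333133333 Tr.lf)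
                0x3333223333
                (Tr.nd Tr.lf 0x3333233233 Tr.lf))
              0x3333233323
              (Tr.nd
                (Tr.nd Tr.lf 0x3333233333 Tr.lf)
                0x3333303333
                Tr.lf))
            0x3333333303
            (Tr.nd
              (Tr.nd
                (Tr.nd Tr.lf 0x3333333313 Tr.lf)
                0x3333333323
                (Tr.nd Tr.lf 0x3333333333 Tr.lf))
              0x3333333343
              (Tr.nd
                (Tr.nd Tr.lf 0x3333333353 Tr.lf)
                0x3333333363
                Tr.lf)))
          0x3333333373
          (Tr.nd
            (Tr.nd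
              (Tr.nd
                (Tr.nd Tr.lf 0x3333333393 Tr.lf)
                0x3333363333
                (Tr.nd Tr.lf 0x3333433333 Tr.lf))
              0x3333433343
              (Tr.nd
                (Tr.nd Tr.lf 0x3333433433 Tr.lf)
                0x3333443333
                Tr.lf))
            0x3333533333
            (Tr.nd
              (Tr.nd
                (Tr.nd Tr.lf 0x3333533353 Tr.lf)
                0x3333533533
                (Tr.nd Tr.lf 0x3333553333 Tr.lf))
              0x3333563333
              (Tr.nd
                (Tr.nd Tr.lf 0x3333633333 Tr.lf)
                0x3333633336
                Tr.lf))))))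
    0x3333633353
    (Tr.nd
      (Tr.nd
        (Tr.nd
          (Tr.nd
            (Tr.nd
              (Tr.nd
                (Tr.nd Tr.lf 0x3333633363 Tr.lf)
                0x3333633633
                (Tr.nd Tr.lf 0x3333663333 Tr.lf))
              0x3333733333
              (Tr.nd
                (Tr.nd Tr.lf 0x3333733373 Tr.lf)
                0x3333733733
                (Tr.nd Tr.lf 0x3333773333 Tr.lf)))
            0x3333933333
            (Tr.nd
              (Tr.nd
                (Tr.nd Tr.lf 0x3333933393 Tr.lf)
                0x3333933933
                (Tr.nd Tr.lf 0x3333993333 Tr.lf))
              0x3343043033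
              (Tr.nd
                (Tr.nd Tr.lf 0x3343333343 Tr.lf)
                0x3343333433
                Tr.lf)))
          0x3343343333
          (Tr.nd
            (Tr.nd
              (Tr.nd
                (Tr.nd Tr.lf 0x3353333353 Tr.lf)
                0x3353333533
                (Tr.nd Tr.lf 0x3353353333 Tr.lf))
              0x3353653633
              (Tr.nd
                (Tr.nd Tr.lf 0x3353663353 Tr.lf)
                0x3363333333
                Tr.lf))
            0x3363333363
            (Tr.nd
              (Tr.nd
                (Tr.nd Tr.lf 0x3363333633 Tr.lf)
                0x3363363333
                (Tr.nd Tr.lf 0x3363553363 Tr.lf))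
              0x3363563533
              (Tr.nd
                (Tr.nd Tr.lf 0x3363773363 Tr.lf)
                0x3363963933
                Tr.lf))))
        0x3363993363
        (Tr.nd
          (Tr.nd
            (Tr.nd
              (Tr.nd
                (Tr.nd Tr.lf 0x3373333373 Tr.lf)
                0x3373333733
                (Tr.nd Tr.lf 0x3373373333 Tr.lf))
              0x3373673633
              (Tr.nd
                (Tr.nd Tr.lf 0x3393333393 Tr.lf)
                0x3393333933
                Tr.lf))
            0x3393393333
            (Tr.nd
              (Tr.nd
                (Tr.nd Tr.lf 0x3393663393 Tr.lf)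
                0x3393693633
                (Tr.nd Tr.lf 0x3403293673 Tr.lf))
              0x3403333033
              (Tr.nd
                (Tr.nd Tr.lf 0x3433033343 Tr.lf)
                0x3433333303
                Tr.lf)))
          0x3433333333
          (Tr.nd
            (Tr.nd
              (Tr.nd
                (Tr.nd Tr.lf 0x3433333343 Tr.lf)
                0x3433343333
                (Tr.nd Tr.lf 0x3533333333 Tr.lf))
              0x3533333353
              (Tr.nd
                (Tr.nd Tr.lf 0x3533333363 Tr.lf)
                0x3533353333
                Tr.lf))
            0x3533633336
            (Tr.nd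
              (Tr.nd
                (Tr.nd Tr.lf 0x3533633353 Tr.lf)
                0x3533633393
                (Tr.nd Tr.lf 0x3533653363 Tr.lf))
              0x3533963353
              (Tr.nd
                (Tr.nd Tr.lf 0x3563333633 Tr.lf)
                0x3563353333
                Tr.lf)))))
      0x3633333333
      (Tr.nd
        (Tr.nd
          (Tr.nd
            (Tr.nd
              (Tr.nd
                (Tr.nd Tr.lf 0x3633333353 Tr.lf)
                0x3633333363
                (Tr.nd Tr.lf 0x3633333393 Tr.lf))
              0x3633333633
              (Tr.nd
                (Tr.nd Tr.lf 0x3633363333 Tr.lf)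
                0x3633533363
                (Tr.nd Tr.lf 0x3633563353 Tr.lf)))
            0x3633763373
            (Tr.nd
              (Tr.nd
                (Tr.nd Tr.lf 0x3633933363 Tr.lf)
                0x3633963393
                (Tr.nd Tr.lf 0x3653333533 Tr.lf))
              0x3653333653
              (Tr.nd
                (Tr.nd Tr.lf 0x3673333733 Tr.lf)
                0x3693333933
                Tr.lf)))
          0x3693553693
          (Tr.nd
            (Tr.nd
              (Tr.nd
                (Tr.nd Tr.lf 0x3733333333 Tr.lf)
                0x3733333363
                (Tr.nd Tr.lf 0x3733333373 Tr.lf))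
              0x3733373333
              (Tr.nd
                (Tr.nd Tr.lf 0x3733633373 Tr.lf)
                0x3763333633
                Tr.lf))
            0x3763903323
            (Tr.nd
              (Tr.nd
                (Tr.nd Tr.lf 0x3933333333 Tr.lf)
                0x3933333363
                (Tr.nd Tr.lf 0x3933333393 Tr.lf))
              0x3933393333
              (Tr.nd
                (Tr.nd Tr.lf 0x3933633303 Tr.lf)
                0x3933633393
                Tr.lf))))
        0x3933693363
        (Tr.nd
          (Tr.nd
            (Tr.nd
              (Tr.nd
                (Tr.nd Tr.lf 0x3953333533 Tr.lf)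
                0x3963333633
                (Tr.nd Tr.lf 0x3963593353 Tr.lf))
              0x4033343333
              (Tr.nd
                (Tr.nd Tr.lf 0x4333343333 Tr.lf)
                0x5333353333
                Tr.lf))
            0x5363353633
            (Tr.nd
              (Tr.nd
                (Tr.nd Tr.lf 0x5633353333 Tr.lf)
                0x5933653336
                (Tr.nd Tr.lf 0x6333333363 Tr.lf))
              0x6333363333
              (Tr.nd
                (Tr.nd Tr.lf 0x6333533563 Tr.lf)
                0x6353363533
                Tr.lf)))
          0x6353953963
          (Tr.nd
            (Tr.nd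
              (Tr.nd
                (Tr.nd Tr.lf 0x6533363333 Tr.lf)
                0x6593363933
                (Tr.nd Tr.lf 0x6593723043 Tr.lf))
              0x6733363333
              (Tr.nd
                (Tr.nd Tr.lf 0x6933363333 Tr.lf)
                0x6973363733
                Tr.lf))
            0x7333373333
            (Tr.nd
              (Tr.nd
                (Tr.nd Tr.lf 0x7633373333 Tr.lf)
                0x9333393333
                (Tr.nd Tr.lf 0x9563393633 Tr.lf))
              0x9633393333
              (Tr.nd
                (Tr.nd Tr.lf 0x9753693536 Tr.lf)
                0x9876543210
                Tr.lf)))))))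

/-- the code of a letter kind in the automaton `A` -/
def tabA : LK → ℕ
  | LK.idl => 0x9876543210
  | LK.up => 0x2413023130
  | LK.refl => 0x0123473956

theorem tabB_mem (k : LK) : tabB k ∈ gensB := by
  cases k <;> simp [tabB, gensB]

theorem tabA_mem (k : LK) : tabA k ∈ gensA := by
  cases k <;> simp [tabA, gensA]

theorem stepB_tab : ∀ (k : LK) (q : ZMod 5 × Bool),
    encS (absorb (stepC 1 0) (1, false) q k) = dg (tabB k) (encS q) := by
  intro k
  cases k <;> decide

theorem stepA_tab : ∀ (k : LK) (q : ZMod 5 × Bool),
    encS (absorb (stepC 1 4) (3, false) q k) = dg (tabA k) (encS q) := by
  intro k
  cases k <;> decide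

theorem checkB : checkT gensB trB = true := by decide +kernel

theorem checkA : checkT gensA trA = true := by decide +kernel

/-- the automaton `B` (parameters `1`, `0`) is counter-free once (1, false) is absorbing -/
theorem cfB : CounterFree (absorb (stepC 1 0) (1, false)) :=
  cf_of_checkT _ encS encS_inj encS_lt tabB gensB trB tabB_mem
    (fun q k => stepB_tab k q) checkB

/-- the automaton `A` (parameters `1`, `4`) is counter-free once (3, false) is absorbing -/
theorem cfA : CounterFree (absorb (stepC 1 4) (3, false)) :=
  cf_of_checkT _ encS encS_inj encS_lt tabA gensA trA tabA_mem
    (fun q k => stepA_tab k q) checkA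

end Vale.Agent.Helper15.F20
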