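import Vale.Agent.Helper15.F20Data

/-!
# The two accumulator automata with a fourth letter kind

The letter kinds are `idl` (identity), `up` (the element of order four), `refl` (the
reflection) and `dn` (the product of the reflection and the element of order four, an
element of the inverse coset).  The kind `dn` resets the phase bit and acts as
`t ↦ 2 * t + 3 * c0`, which is the action of the word `refl`, `up` read at phase `false`.
-/

namespace Vale.Agent.Helper15.F20

open Vale.Agent.Helper10

/-- the four kinds of letters -/
inductive LK4 : Type
  | idl : LK4
  | up : LK4
  | refl : LK4
  | dn : LK4

/-- the accumulator automaton with parameters `c0`, `c1` and four letter kinds -/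
def stepC4 (c0 c1 : ZMod 5) (q : ZMod 5 × Bool) : LK4 → ZMod 5 × Bool
  | LK4.idl => q
  | LK4.up => (3 * q.1, false)
  | LK4.refl => if q.2 = true then (c1 - q.1, false) else (c0 - q.1, true)
  | LK4.dn => (2 * q.1 + 3 * c0, false)

/-- the codes of the four letter kinds of the automaton `B` with absorbing base -/
def gensB4 : List ℕ :=
  [0x9876543210, 0x2413024110, 0x1234078916, 0x1420314213]

/-- the transition monoid of the automaton `B` (four letter kinds) with absorbing base, as a tree of codes -/
def trB4 : Tr :=
  (Tr.nd
    (Tr.nd
      (Tr.nd
        (Tr.nd
          (Tr.nd
            (Tr.nd
              (Tr.nd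
                (Tr.nd Tr.lf 0x1110111111 Tr.lf)
                0x1110211112
                (Tr.nd Tr.lf 0x1111011110 Tr.lf))
              0x1111011111
              (Tr.nd
                (Tr.nd Tr.lf 0x1111011112 Tr.lf)
                0x1111111110
                Tr.lf))
            0x1111111111
            (Tr.nd
              (Tr.nd
                (Tr.nd Tr.lf 0x1111111112 Tr.lf)
                0x1111111113
                (Tr.nd Tr.lf 0x1111111114 Tr.lf))
              0x1111111116
              (Tr.nd
                (Tr.nd Tr.lf 0x1111111117 Tr.lf)
                0x1111111118
                Tr.lf)))
          0x1111111119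
          (Tr.nd
            (Tr.nd
              (Tr.nd
                (Tr.nd Tr.lf 0x1111121111 Tr.lf)
                0x1111191111
                (Tr.nd Tr.lf 0x1111211110 Tr.lf))
              0x1111211111
              (Tr.nd
                (Tr.nd Tr.lf 0x1111211112 Tr.lf)
                0x1111211113
                Tr.lf))
            0x1111211114
            (Tr.nd
              (Tr.nd
                (Tr.nd Tr.lf 0x1111211119 Tr.lf)
                0x1111212111
                (Tr.nd Tr.lf 0x1111221111 Tr.lf))
              0x1111311111
              (Tr.nd
                (Tr.nd Tr.lf 0x1111311112 Tr.lf)
                0x1111311113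
                Tr.lf))))
        0x1111311114
        (Tr.nd
          (Tr.nd
            (Tr.nd
              (Tr.nd
                (Tr.nd Tr.lf 0x1111411111 Tr.lf)
                0x1111411112
                (Tr.nd Tr.lf 0x1111411113 Tr.lf))
              0x1111411114
              (Tr.nd
                (Tr.nd Tr.lf 0x1111421114 Tr.lf)
                0x1111611111
                Tr.lf))
            0x1111611116
            (Tr.nd
              (Tr.nd
                (Tr.nd Tr.lf 0x1111611119 Tr.lf)
                0x1111711111
                (Tr.nd Tr.lf 0x1111711117 Tr.lf))
              0x1111711118
              (Tr.nd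
                (Tr.nd Tr.lf 0x1111711119 Tr.lf)
                0x1111791117
                Tr.lf)))
          0x1111811111
          (Tr.nd
            (Tr.nd
              (Tr.nd
                (Tr.nd Tr.lf 0x1111811117 Tr.lf)
                0x1111811118
                (Tr.nd Tr.lf 0x1111811119 Tr.lf))
              0x1111911111
              (Tr.nd
                (Tr.nd Tr.lf 0x1111911116 Tr.lf)
                0x1111911117
                Tr.lf))
            0x1111911118
            (Tr.nd
              (Tr.nd
                (Tr.nd Tr.lf 0x1111911119 Tr.lf)
                0x1111919111
                (Tr.nd Tr.lf 0x1111991111 Tr.lf))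
              0x1112011110
              (Tr.nd
                (Tr.nd Tr.lf 0x1112111111 Tr.lf)
                0x1112111112
                Tr.lf)))))
      0x1112111211
      (Tr.nd
        (Tr.nd
          (Tr.nd
            (Tr.nd
              (Tr.nd
                (Tr.nd Tr.lf 0x1112112111 Tr.lf)
                0x1112121111
                (Tr.nd Tr.lf 0x1112311113 Tr.lf))
              0x1112311214
              (Tr.nd
                (Tr.nd Tr.lf 0x1112312111 Tr.lf)
                0x1112391118
                Tr.lf))
            0x1112411111
            (Tr.nd
              (Tr.nd
                (Tr.nd Tr.lf 0x1112411114 Tr.lf)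
                0x1112411211
                (Tr.nd Tr.lf 0x1112412111 Tr.lf))
              0x1113111111
              (Tr.nd
                (Tr.nd Tr.lf 0x1113111113 Tr.lf)
                0x1113131111
                Tr.lf)))
          0x1113211112
          (Tr.nd
            (Tr.nd
              (Tr.nd
                (Tr.nd Tr.lf 0x1113411114 Tr.lf)
                0x1114111111
                (Tr.nd Tr.lf 0x1114111114 Tr.lf))
              0x1114141111
              (Tr.nd
                (Tr.nd Tr.lf 0x1114211112 Tr.lf)
                0x1114221114
                Tr.lf))
            0x1114242111
            (Tr.nd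
              (Tr.nd
                (Tr.nd Tr.lf 0x1114311113 Tr.lf)
                0x1116111111
                (Tr.nd Tr.lf 0x1116911119 Tr.lf))
              0x1117111111
              (Tr.nd
                (Tr.nd Tr.lf 0x1117111117 Tr.lf)
                0x1117171111
                Tr.lf))))
        0x1117811118
        (Tr.nd
          (Tr.nd
            (Tr.nd
              (Tr.nd
                (Tr.nd Tr.lf 0x1117911119 Tr.lf)
                0x1117979111
                (Tr.nd Tr.lf 0x1117991117 Tr.lf))
              0x1118111111
              (Tr.nd
                (Tr.nd Tr.lf 0x1118111118 Tr.lf)
                0x1118181111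
                Tr.lf))
            0x1118711117
            (Tr.nd
              (Tr.nd
                (Tr.nd Tr.lf 0x1118911119 Tr.lf)
                0x1119111111
                (Tr.nd Tr.lf 0x1119111119 Tr.lf))
              0x1119111911
              (Tr.nd
                (Tr.nd Tr.lf 0x1119119111 Tr.lf)
                0x1119191111
                Tr.lf)))
          0x1119611116
          (Tr.nd
            (Tr.nd
              (Tr.nd
                (Tr.nd Tr.lf 0x1119711111 Tr.lf)
                0x1119711117
                (Tr.nd Tr.lf 0x1119711911 Tr.lf))
              0x1119719111
              (Tr.nd
                (Tr.nd Tr.lf 0x1119811112 Tr.lf)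
                0x1119811118
                Tr.lf))
            0x1119811917
            (Tr.nd
              (Tr.nd
                (Tr.nd Tr.lf 0x1119819111 Tr.lf)
                0x1121012114
                (Tr.nd Tr.lf 0x1121021111 Tr.lf))
              0x1121111111
              (Tr.nd
                (Tr.nd Tr.lf 0x1121111112 Tr.lf)
                0x1121111211
                Tr.lf))))))
    0x1121112111
    (Tr.nd
      (Tr.nd
        (Tr.nd
          (Tr.nd
            (Tr.nd
              (Tr.nd
                (Tr.nd Tr.lf 0x1121112113 Tr.lf)
                0x1121112114
                (Tr.nd Tr.lf 0x1121121111 Tr.lf))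
              0x1121312111
              (Tr.nd
                (Tr.nd Tr.lf 0x1121321111 Tr.lf)
                0x1121412110
                Tr.lf))
            0x1121412111
            (Tr.nd
              (Tr.nd
                (Tr.nd Tr.lf 0x1121421111 Tr.lf)
                0x1123411214
                (Tr.nd Tr.lf 0x1123489117 Tr.lf))
              0x1124111114
              (Tr.nd
                (Tr.nd Tr.lf 0x1124111211 Tr.lf)
                0x1124141112
                Tr.lf)))
          0x1131113111
          (Tr.nd
            (Tr.nd
              (Tr.nd
                (Tr.nd Tr.lf 0x1131131111 Tr.lf)
                0x1131213114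
                (Tr.nd Tr.lf 0x1131231111 Tr.lf))
              0x1131413112
              (Tr.nd
                (Tr.nd Tr.lf 0x1131431111 Tr.lf)
                0x1141114111
                Tr.lf))
            0x1141114112
            (Tr.nd
              (Tr.nd
                (Tr.nd Tr.lf 0x1141141111 Tr.lf)
                0x1141214111
                (Tr.nd Tr.lf 0x1141241111 Tr.lf))
              0x1142014213
              (Tr.nd
                (Tr.nd Tr.lf 0x1142042111 Tr.lf)
                0x1171117111
                Tr.lf))))
        0x1171117119
        (Tr.nd
          (Tr.nd
            (Tr.nd
              (Tr.nd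
                (Tr.nd Tr.lf 0x1171171111 Tr.lf)
                0x1171917111
                (Tr.nd Tr.lf 0x1171971111 Tr.lf))
              0x1179617918
              (Tr.nd
                (Tr.nd Tr.lf 0x1179679111 Tr.lf)
                0x1181118111
                Tr.lf))
            0x1181181111
            (Tr.nd
              (Tr.nd
                (Tr.nd Tr.lf 0x1181718119 Tr.lf)
                0x1181781111
                (Tr.nd Tr.lf 0x1181918117 Tr.lf))
              0x1181981111
              (Tr.nd
                (Tr.nd Tr.lf 0x1191111111 Tr.lf)
                0x1191111119
                Tr.lf)))
          0x1191111911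
          (Tr.nd
            (Tr.nd
              (Tr.nd
                (Tr.nd Tr.lf 0x1191119111 Tr.lf)
                0x1191119117
                (Tr.nd Tr.lf 0x1191119118 Tr.lf))
              0x1191191111
              (Tr.nd
                (Tr.nd Tr.lf 0x1191619117 Tr.lf)
                0x1191691111
                Tr.lf))
            0x1191719111
            (Tr.nd
              (Tr.nd
                (Tr.nd Tr.lf 0x1191719116 Tr.lf)
                0x1191791111
                (Tr.nd Tr.lf 0x1191819111 Tr.lf))
              0x1191891111
              (Tr.nd
                (Tr.nd Tr.lf 0x1197111117 Tr.lf)
                0x1197111911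
                Tr.lf)))))
      0x1197171119
      (Tr.nd
        (Tr.nd
          (Tr.nd
            (Tr.nd
              (Tr.nd
                (Tr.nd Tr.lf 0x1198711917 Tr.lf)
                0x1198721113
                (Tr.nd Tr.lf 0x1210412114 Tr.lf))
              0x1211111112
              (Tr.nd
                (Tr.nd Tr.lf 0x1211112111 Tr.lf)
                0x1211121111
                Tr.lf))
            0x1211121114
            (Tr.nd
              (Tr.nd
                (Tr.nd Tr.lf 0x1211312113 Tr.lf)
                0x1211411112
                (Tr.nd Tr.lf 0x1211412114 Tr.lf))
              0x1211421113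
              (Tr.nd
                (Tr.nd Tr.lf 0x1213112111 Tr.lf)
                0x1214012110
                Tr.lf)))
          0x1214112111
          (Tr.nd
            (Tr.nd
              (Tr.nd
                (Tr.nd Tr.lf 0x1234078916 Tr.lf)
                0x1241324110
                (Tr.nd Tr.lf 0x1241341112 Tr.lf))
              0x1311113111
              (Tr.nd
                (Tr.nd Tr.lf 0x1312413114 Tr.lf)
                0x1314213112
                Tr.lf))
            0x1411114111
            (Tr.nd
              (Tr.nd
                (Tr.nd Tr.lf 0x1411214112 Tr.lf)
                0x1412114111
                (Tr.nd Tr.lf 0x1420314213 Tr.lf))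
              0x1711117111
              (Tr.nd
                (Tr.nd Tr.lf 0x1711917119 Tr.lf)
                0x1719117111
                Tr.lf))))
        0x1796817918
        (Tr.nd
          (Tr.nd
            (Tr.nd
              (Tr.nd
                (Tr.nd Tr.lf 0x1811118111 Tr.lf)
                0x1817918119
                (Tr.nd Tr.lf 0x1819718117 Tr.lf))
              0x1911111119
              (Tr.nd
                (Tr.nd Tr.lf 0x1911119111 Tr.lf)
                0x1911191111
                Tr.lf))
            0x1911191117
            (Tr.nd
              (Tr.nd
                (Tr.nd Tr.lf 0x1911711119 Tr.lf)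
                0x1911719117
                (Tr.nd Tr.lf 0x1911791118 Tr.lf))
              0x1911819118
              (Tr.nd
                (Tr.nd Tr.lf 0x1916719117 Tr.lf)
                0x1917119111
                Tr.lf)))
          0x1917619116
          (Tr.nd
            (Tr.nd
              (Tr.nd
                (Tr.nd Tr.lf 0x1918119111 Tr.lf)
                0x1971871119
                (Tr.nd Tr.lf 0x1971897116 Tr.lf))
              0x1987632114
              (Tr.nd
                (Tr.nd Tr.lf 0x2111121111 Tr.lf)
                0x2111421114
                Tr.lf))
            0x2114321113
            (Tr.nd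
              (Tr.nd
                (Tr.nd Tr.lf 0x2413024110 Tr.lf)
                0x9111191111
                (Tr.nd Tr.lf 0x9111791117 Tr.lf))
              0x9117891118
              (Tr.nd
                (Tr.nd Tr.lf 0x9718697116 Tr.lf)
                0x9876543210
                Tr.lf)))))))

/-- the code of a letter kind in the automaton `B` -/
def tabB4 : LK4 → ℕ
  | LK4.idl => 0x9876543210
  | LK4.up => 0x2413024110
  | LK4.refl => 0x1234078916
  | LK4.dn => 0x1420314213

/-- the codes of the four letter kinds of the automaton `A` with absorbing base -/
def gensA4 : List ℕ :=
  [0x9876543210, 0x2413023130, 0x0123473956, 0x1420313203]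

/-- the transition monoid of the automaton `A` (four letter kinds) with absorbing base, as a tree of codes -/
def trA4 : Tr :=
  (Tr.nd
    (Tr.nd
      (Tr.nd
        (Tr.nd
          (Tr.nd
            (Tr.nd
              (Tr.nd
                (Tr.nd
                  (Tr.nd Tr.lf 0x0123303233 Tr.lf)
                  0x0123473956
                  Tr.lf)
                0x0133303333
                (Tr.nd Tr.lf 0x0233303333 Tr.lf))
              0x0243303433
              (Tr.nd
                (Tr.nd Tr.lf 0x0313213203 Tr.lf)
                0x0313223313
                (Tr.nd Tr.lf 0x0313303133 Tr.lf)))
            0x0333113333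
            (Tr.nd
              (Tr.nd
                (Tr.nd
                  (Tr.nd Tr.lf 0x0333133103 Tr.lf)
                  0x0333303333
                  Tr.lf)
                0x0333333303
                (Tr.nd Tr.lf 0x0333333333 Tr.lf))
              0x0433303333
              (Tr.nd
                (Tr.nd Tr.lf 0x1033313333 Tr.lf)
                0x1233013330
                (Tr.nd Tr.lf 0x1233313333 Tr.lf))))
          0x1303313033
          (Tr.nd
            (Tr.nd
              (Tr.nd
                (Tr.nd
                  (Tr.nd Tr.lf 0x1333313333 Tr.lf)
                  0x1420313203
                  Tr.lf)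
                0x2033323333
                (Tr.nd Tr.lf 0x2103323033 Tr.lf))
              0x2333323333
              (Tr.nd
                (Tr.nd Tr.lf 0x2413023130 Tr.lf)
                0x3013313330
                (Tr.nd Tr.lf 0x3013333013 Tr.lf)))
            0x3013333133
            (Tr.nd
              (Tr.nd
                (Tr.nd Tr.lf 0x3023113023 Tr.lf)
                0x3023123130
                (Tr.nd Tr.lf 0x3023333233 Tr.lf))
              0x3033103313
              (Tr.nd
                (Tr.nd Tr.lf 0x3033133303 Tr.lf)
                0x3033203323
                (Tr.nd Tr.lf 0x3033233303 Tr.lf)))))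
        0x3033303333
        (Tr.nd
          (Tr.nd
            (Tr.nd
              (Tr.nd
                (Tr.nd
                  (Tr.nd Tr.lf 0x3033333033 Tr.lf)
                  0x3033333303
                  Tr.lf)
                0x3033333313
                (Tr.nd Tr.lf 0x3033333323 Tr.lf))
              0x3033333330
              (Tr.nd
                (Tr.nd Tr.lf 0x3033333333 Tr.lf)
                0x3033333343
                (Tr.nd Tr.lf 0x3033333363 Tr.lf)))
            0x3033403343
            (Tr.nd
              (Tr.nd
                (Tr.nd
                  (Tr.nd Tr.lf 0x3033433303 Tr.lf)
                  0x3043333433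
                  Tr.lf)
                0x3103313333
                (Tr.nd Tr.lf 0x3103333033 Tr.lf))
              0x3103333313
              (Tr.nd
                (Tr.nd Tr.lf 0x3130333303 Tr.lf)
                0x3133013303
                (Tr.nd Tr.lf 0x3133033313 Tr.lf))))
          0x3133033323
          (Tr.nd
            (Tr.nd
              (Tr.nd
                (Tr.nd
                  (Tr.nd Tr.lf 0x3133033330 Tr.lf)
                  0x3133033333
                  Tr.lf)
                0x3133203313
                (Tr.nd Tr.lf 0x3133213023 Tr.lf))
              0x3133303333
              (Tr.nd
                (Tr.nd Tr.lf 0x3133313333 Tr.lf)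
                0x3133333303
                (Tr.nd Tr.lf 0x3133333313 Tr.lf)))
            0x3133333333
            (Tr.nd
              (Tr.nd
                (Tr.nd Tr.lf 0x3203123313 Tr.lf)
                0x3203133323
                (Tr.nd Tr.lf 0x3203333033 Tr.lf))
              0x3210333103
              (Tr.nd
                (Tr.nd Tr.lf 0x3213333133 Tr.lf)
                0x3233023303
                (Tr.nd Tr.lf 0x3233033323 Tr.lf))))))
      0x3233063393
      (Tr.nd
        (Tr.nd
          (Tr.nd
            (Tr.nd
              (Tr.nd
                (Tr.nd
                  (Tr.nd Tr.lf 0x3233303313 Tr.lf)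
                  0x3233323333
                  Tr.lf)
                0x3233333303
                (Tr.nd Tr.lf 0x3233333323 Tr.lf))
              0x3233333333
              (Tr.nd
                (Tr.nd Tr.lf 0x3303103133 Tr.lf)
                0x3303113303
                (Tr.nd Tr.lf 0x3303203233 Tr.lf)))
            0x3303223303
            (Tr.nd
              (Tr.nd
                (Tr.nd
                  (Tr.nd Tr.lf 0x3303303333 Tr.lf)
                  0x3303333033
                  Tr.lf)
                0x3303333303
                (Tr.nd Tr.lf 0x3303333333 Tr.lf))
              0x3303403433
              (Tr.nd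
                (Tr.nd Tr.lf 0x3303443303 Tr.lf)
                0x3313003313
                (Tr.nd Tr.lf 0x3313013033 Tr.lf))))
          0x3313313333
          (Tr.nd
            (Tr.nd
              (Tr.nd
                (Tr.nd
                  (Tr.nd Tr.lf 0x3313333133 Tr.lf)
                  0x3313333313
                  Tr.lf)
                0x3323003323
                (Tr.nd Tr.lf 0x3323023033 Tr.lf))
              0x3323323333
              (Tr.nd
                (Tr.nd Tr.lf 0x3323333233 Tr.lf)
                0x3323333323
                (Tr.nd Tr.lf 0x3330333303 Tr.lf)))
            0x3333003333
            (Tr.nd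
              (Tr.nd
                (Tr.nd Tr.lf 0x3333033033 Tr.lf)
                0x3333033303
                (Tr.nd Tr.lf 0x3333033313 Tr.lf))
              0x3333033330
              (Tr.nd
                (Tr.nd Tr.lf 0x3333033333 Tr.lf)
                0x3333103333
                (Tr.nd Tr.lf 0x3333113333 Tr.lf)))))
        0x3333133013
        (Tr.nd
          (Tr.nd
            (Tr.nd
              (Tr.nd
                (Tr.nd
                  (Tr.nd Tr.lf 0x3333133133 Tr.lf)
                  0x3333133313
                  Tr.lf)
                0x3333133333
                (Tr.nd Tr.lf 0x3333223333 Tr.lf))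
              0x3333233233
              (Tr.nd
                (Tr.nd Tr.lf 0x3333233323 Tr.lf)
                0x3333233333
                (Tr.nd Tr.lf 0x3333303333 Tr.lf)))
            0x3333333033
            (Tr.nd
              (Tr.nd
                (Tr.nd Tr.lf 0x3333333303 Tr.lf)
                0x3333333313
                (Tr.nd Tr.lf 0x3333333323 Tr.lf))
              0x3333333333
              (Tr.nd
                (Tr.nd Tr.lf 0x3333333343 Tr.lf)
                0x3333333353
                (Tr.nd Tr.lf 0x3333333363 Tr.lf))))
          0x3333333373
          (Tr.nd
            (Tr.nd
              (Tr.nd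
                (Tr.nd
                  (Tr.nd Tr.lf 0x3333333393 Tr.lf)
                  0x3333333633
                  Tr.lf)
                0x3333363333
                (Tr.nd Tr.lf 0x3333433333 Tr.lf))
              0x3333433343
              (Tr.nd
                (Tr.nd Tr.lf 0x3333433433 Tr.lf)
                0x3333443333
                (Tr.nd Tr.lf 0x3333533333 Tr.lf)))
            0x3333533353
            (Tr.nd
              (Tr.nd
                (Tr.nd Tr.lf 0x3333533533 Tr.lf)
                0x3333533653
                (Tr.nd Tr.lf 0x3333553333 Tr.lf))
              0x3333563333
              (Tr.nd
                (Tr.nd Tr.lf 0x3333633333 Tr.lf)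
                0x3333633336
                (Tr.nd Tr.lf 0x3333633353 Tr.lf)))))))
    0x3333633363
    (Tr.nd
      (Tr.nd
        (Tr.nd
          (Tr.nd
            (Tr.nd
              (Tr.nd
                (Tr.nd
                  (Tr.nd Tr.lf 0x3333633633 Tr.lf)
                  0x3333663333
                  Tr.lf)
                0x3333733333
                (Tr.nd Tr.lf 0x3333733373 Tr.lf))
              0x3333733733
              (Tr.nd
                (Tr.nd Tr.lf 0x3333773333 Tr.lf)
                0x3333933333
                (Tr.nd Tr.lf 0x3333933393 Tr.lf)))
            0x3333933933
            (Tr.nd
              (Tr.nd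
                (Tr.nd
                  (Tr.nd Tr.lf 0x3333993333 Tr.lf)
                  0x3336333363
                  Tr.lf)
                0x3343003343
                (Tr.nd Tr.lf 0x3343043033 Tr.lf))
              0x3343333343
              (Tr.nd
                (Tr.nd Tr.lf 0x3343333433 Tr.lf)
                0x3343343333
                (Tr.nd Tr.lf 0x3353333353 Tr.lf))))
          0x3353333533
          (Tr.nd
            (Tr.nd
              (Tr.nd
                (Tr.nd
                  (Tr.nd Tr.lf 0x3353353333 Tr.lf)
                  0x3353653633
                  Tr.lf)
                0x3353663353
                (Tr.nd Tr.lf 0x3363333333 Tr.lf))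
              0x3363333363
              (Tr.nd
                (Tr.nd Tr.lf 0x3363333633 Tr.lf)
                0x3363363333
                (Tr.nd Tr.lf 0x3363553363 Tr.lf)))
            0x3363563533
            (Tr.nd
              (Tr.nd
                (Tr.nd Tr.lf 0x3363763733 Tr.lf)
                0x3363773363
                (Tr.nd Tr.lf 0x3363963933 Tr.lf))
              0x3363993363
              (Tr.nd
                (Tr.nd Tr.lf 0x3373333373 Tr.lf)
                0x3373333733
                (Tr.nd Tr.lf 0x3373373333 Tr.lf)))))
        0x3373663373
        (Tr.nd
          (Tr.nd
            (Tr.nd
              (Tr.nd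
                (Tr.nd
                  (Tr.nd Tr.lf 0x3373673633 Tr.lf)
                  0x3393333393
                  Tr.lf)
                0x3393333933
                (Tr.nd Tr.lf 0x3393393333 Tr.lf))
              0x3393663393
              (Tr.nd
                (Tr.nd Tr.lf 0x3393693633 Tr.lf)
                0x3403293673
                (Tr.nd Tr.lf 0x3403333033 Tr.lf)))
            0x3433033343
            (Tr.nd
              (Tr.nd
                (Tr.nd
                  (Tr.nd Tr.lf 0x3433043303 Tr.lf)
                  0x3433333303
                  Tr.lf)
                0x3433333333
                (Tr.nd Tr.lf 0x3433333343 Tr.lf))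
              0x3433343333
              (Tr.nd
                (Tr.nd Tr.lf 0x3533333333 Tr.lf)
                0x3533333353
                (Tr.nd Tr.lf 0x3533333363 Tr.lf))))
          0x3533353333
          (Tr.nd
            (Tr.nd
              (Tr.nd
                (Tr.nd
                  (Tr.nd Tr.lf 0x3533363333 Tr.lf)
                  0x3533633333
                  Tr.lf)
                0x3533633336
                (Tr.nd Tr.lf 0x3533633353 Tr.lf))
              0x3533633393
              (Tr.nd
                (Tr.nd Tr.lf 0x3533653363 Tr.lf)
                0x3533953693
                (Tr.nd Tr.lf 0x3533963353 Tr.lf)))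
            0x3536333363
            (Tr.nd
              (Tr.nd
                (Tr.nd Tr.lf 0x3563333353 Tr.lf)
                0x3563333633
                (Tr.nd Tr.lf 0x3563353333 Tr.lf))
              0x3633333333
              (Tr.nd
                (Tr.nd Tr.lf 0x3633333336 Tr.lf)
                0x3633333353
                (Tr.nd Tr.lf 0x3633333363 Tr.lf))))))
      0x3633333373
      (Tr.nd
        (Tr.nd
          (Tr.nd
            (Tr.nd
              (Tr.nd
                (Tr.nd
                  (Tr.nd Tr.lf 0x3633333393 Tr.lf)
                  0x3633333633
                  Tr.lf)
                0x3633363333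
                (Tr.nd Tr.lf 0x3633533363 Tr.lf))
              0x3633563353
              (Tr.nd
                (Tr.nd Tr.lf 0x3633733363 Tr.lf)
                0x3633763373
                (Tr.nd Tr.lf 0x3633933363 Tr.lf)))
            0x3633963393
            (Tr.nd
              (Tr.nd
                (Tr.nd
                  (Tr.nd Tr.lf 0x3653333533 Tr.lf)
                  0x3653333653
                  Tr.lf)
                0x3653353336
                (Tr.nd Tr.lf 0x3673333733 Tr.lf))
              0x3693333933
              (Tr.nd
                (Tr.nd Tr.lf 0x3693553693 Tr.lf)
                0x3693593536
                (Tr.nd Tr.lf 0x3733333333 Tr.lf))))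
          0x3733333363
          (Tr.nd
            (Tr.nd
              (Tr.nd
                (Tr.nd
                  (Tr.nd Tr.lf 0x3733333373 Tr.lf)
                  0x3733373333
                  Tr.lf)
                0x3733633373
                (Tr.nd Tr.lf 0x3733673363 Tr.lf))
              0x3763333633
              (Tr.nd
                (Tr.nd Tr.lf 0x3763903323 Tr.lf)
                0x3933333333
                (Tr.nd Tr.lf 0x3933333363 Tr.lf)))
            0x3933333393
            (Tr.nd
              (Tr.nd
                (Tr.nd Tr.lf 0x3933363353 Tr.lf)
                0x3933393333
                (Tr.nd Tr.lf 0x3933633303 Tr.lf))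
              0x3933633393
              (Tr.nd
                (Tr.nd Tr.lf 0x3933693363 Tr.lf)
                0x3953333533
                (Tr.nd Tr.lf 0x3956333563 Tr.lf)))))
        0x3963333633
        (Tr.nd
          (Tr.nd
            (Tr.nd
              (Tr.nd
                (Tr.nd
                  (Tr.nd Tr.lf 0x3963533393 Tr.lf)
                  0x3963593353
                  Tr.lf)
                0x4033343333
                (Tr.nd Tr.lf 0x4203343033 Tr.lf))
              0x4333343333
              (Tr.nd
                (Tr.nd Tr.lf 0x5333353333 Tr.lf)
                0x5363353633
                (Tr.nd Tr.lf 0x5633353333 Tr.lf)))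
            0x5796353963
            (Tr.nd
              (Tr.nd
                (Tr.nd Tr.lf 0x5933353333 Tr.lf)
                0x5933653336
                (Tr.nd Tr.lf 0x6333333333 Tr.lf))
              0x6333333363
              (Tr.nd
                (Tr.nd Tr.lf 0x6333363333 Tr.lf)
                0x6333533563
                (Tr.nd Tr.lf 0x6333553333 Tr.lf))))
          0x6353363533
          (Tr.nd
            (Tr.nd
              (Tr.nd
                (Tr.nd
                  (Tr.nd Tr.lf 0x6353953963 Tr.lf)
                  0x6353993353
                  Tr.lf)
                0x6533363333
                (Tr.nd Tr.lf 0x6593363933 Tr.lf))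
              0x6593723043
              (Tr.nd
                (Tr.nd Tr.lf 0x6733363333 Tr.lf)
                0x6933363333
                (Tr.nd Tr.lf 0x6973363733 Tr.lf)))
            0x7333373333
            (Tr.nd
              (Tr.nd
                (Tr.nd Tr.lf 0x7633373333 Tr.lf)
                0x7963373633
                (Tr.nd Tr.lf 0x9333393333 Tr.lf))
              0x9563393633
              (Tr.nd
                (Tr.nd Tr.lf 0x9633393333 Tr.lf)
                0x9753693536
                (Tr.nd Tr.lf 0x9876543210 Tr.lf))))))))

/-- the code of a letter kind in the automaton `A` -/
def tabA4 : LK4 → ℕ
  | LK4.idl => 0x9876543210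
  | LK4.up => 0x2413023130
  | LK4.refl => 0x0123473956
  | LK4.dn => 0x1420313203

theorem tabB4_mem (k : LK4) : tabB4 k ∈ gensB4 := by
  cases k <;> simp [tabB4, gensB4]

theorem tabA4_mem (k : LK4) : tabA4 k ∈ gensA4 := by
  cases k <;> simp [tabA4, gensA4]

theorem stepB4_tab : ∀ (k : LK4) (q : ZMod 5 × Bool),
    encS (absorb (stepC4 1 0) (1, false) q k) = dg (tabB4 k) (encS q) := by
  intro k
  cases k <;> decide

theorem stepA4_tab : ∀ (k : LK4) (q : ZMod 5 × Bool),
    encS (absorb (stepC4 1 4) (3, false) q k) = dg (tabA4 k) (encS q) := by
  intro k
  cases k <;> decide

theorem checkB4 : checkT gensB4 trB4 = true := by decide +kernel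

theorem checkA4 : checkT gensA4 trA4 = true := by decide +kernel

/-- the automaton `B` (parameters `1`, `0`) with four letter kinds is counter-free once
(1, false) is absorbing -/
theorem cfB4 : CounterFree (absorb (stepC4 1 0) (1, false)) :=
  cf_of_checkT _ encS encS_inj encS_lt tabB4 gensB4 trB4 tabB4_mem
    (fun q k => stepB4_tab k q) checkB4

/-- the automaton `A` (parameters `1`, `4`) with four letter kinds is counter-free once
(3, false) is absorbing -/
theorem cfA4 : CounterFree (absorb (stepC4 1 4) (3, false)) :=
  cf_of_checkT _ encS encS_inj encS_lt tabA4 gensA4 trA4 tabA4_mem
    (fun q k => stepA4_tab k q) checkA4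

end Vale.Agent.Helper15.F20
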